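import Vale.Agent.P134.H930.MISdef
import Vale.Agent.P134.H930.Mass
import Vale.Agent.P134.H586.Chi

set_option linter.all false

/-! `StPA` of `H930/MISdef.lean`. -/

namespace Vale.Agent.P134.H458

open Vale.Agent.P134 Vale.Agent.P134.SM Vale.Agent.P134.LI Vale.Agent.P134.H377 Vale.Agent.P134.H930
open MeasureTheory Filter Topology Set
open scoped ENNReal

lemma zt_eq_one {τ t : ℝ} (h : |t| ≤ τ) : zt τ t = 1 := by
  unfold zt
  exact Real.smoothTransition.one_of_one_le (by linarith)

/-- in the tube part `MM` the point lies above the depth -/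
lemma le_dep {s3 K ε δ W L κ lam : ℝ} (hN : Num s3 K ε δ W L κ lam) {u : R3 → ℝ} (hu : Sol u)
    (hl : ∀ x, |u x| < 1) {x : R3} {t : ℝ} (hz : (x, t) ∈ MM s3 K L u) :
    |t| ≤ dep ε κ u x := by
  obtain ⟨-, hb, hc⟩ := hz
  simp only at hb hc
  have hq := H586.qq_nonneg hu hl x
  have hK := hN.cst.one_le
  have hL := hN.L1
  have s2 := s2pos
  have hκ := hN.κ0
  have hε := hN.ε0
  have hpos : 0 < ε * (qq u x + κ ^ 2) := by positivity
  unfold dep
  rw [le_div_iff₀ (by positivity), one_div, Real.log_inv, le_neg,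
    Real.log_le_iff_le_exp hpos, Real.exp_neg]
  set E := Real.exp (|t| * (2 * Real.sqrt 2)) with hE
  have hE0 : 0 < E := Real.exp_pos _
  have hEe : Real.exp (2 * Real.sqrt 2 * |t|) = E := by rw [hE]; congr 1; ring
  rw [hEe] at hc
  have h1 : E ≤ Real.exp (2 * Real.sqrt 2 * L) := by
    rw [hE]
    apply Real.exp_le_exp.2
    nlinarith
  have h2 : κ ^ 2 * E ≤ 1 / 2 := by
    have := hN.κ1
    have : κ ^ 2 * E ≤ κ ^ 2 * Real.exp (2 * Real.sqrt 2 * L) := by gcongr
    linarith
  have h3 : qq u x * E ≤ 1 / 4 := by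
    have h4 : 1 ≤ K * (1 + L) ^ 4 := by
      have : 1 ≤ (1 + L) ^ 4 := one_le_pow₀ (by linarith)
      nlinarith
    have h5 : 0 ≤ E * qq u x := by positivity
    nlinarith
  rw [← one_div, le_div_iff₀ hE0]
  have := hN.ε1
  nlinarith

lemma pa_k1 {K L : ℝ} (hK : 1 ≤ K) (hL : 1 ≤ L) :
    3 / 2 * K * (1 + L) ^ 4 * (2 * L) ≤ 6 * K * (1 + L) ^ 5 := by
  have h4 : 0 ≤ K * (1 + L) ^ 4 := by positivity
  have : (1 + L) ^ 5 = (1 + L) ^ 4 * (1 + L) := by ring
  rw [this]
  nlinarith

lemma pa_k2 {lam L : ℝ} (hlam : 0 < lam) (hL : 1 ≤ L) :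
    2 * lam * L * (2 * L) ≤ 24 * lam * (1 + L) ^ 2 := by
  nlinarith [mul_nonneg hlam.le (by linarith : (0:ℝ) ≤ L), mul_nonneg hlam.le (sq_nonneg L)]

theorem stPA : StPA := by
  intro s3 K ε δ W L κ lam hN u B w om v hD
  have hu := hD.hu
  have hl := hD.hl
  have hs3 := hN.cst.s3pos
  have hK := hN.cst.one_le
  have hL := hN.L1
  have hLW := hN.LW
  have hlam := hN.l0
  have hlW := hN.l1
  have hL2 : L ≤ W / 2 := by linarith
  have hlL : 2 * lam * L ≤ 1 / 4 := by nlinarith
  set SA : Set R3 := {x | Far B (W / 2) x ∧ ¬ Far B (3 * W) x} with hSA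
  set SD : Set R3 := {x | ¬ Far B (3 * W) x} with hSD
  have mF : ∀ r, MeasurableSet {x | Far B r x} := fun r => H586.measurableSet_Far B r
  have mSA : MeasurableSet SA := (mF _).inter (mF _).compl
  have mSD : MeasurableSet SD := (mF _).compl
  set fa : R3 → ℝ≥0∞ := fun x => ENNReal.ofReal (w (phi u x) * rr u x * qq u x * Gw lam x ^ 2)
    with hfa
  have mfa : Measurable fa := by
    refine ENNReal.measurable_ofReal.comp ?_
    have h1 : Measurable fun x => w (phi u x) :=
      hD.hw.measurable.comp (continuous_phi hu hl).measurable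
    have h2 := measurable_rr u
    have h3 := measurable_qq u
    have h4 := (continuous_Gw lam).measurable
    exact ((h1.mul h2).mul h3).mul (h4.pow_const 2)
  set a : R3 → ℝ≥0∞ := SA.indicator fa with ha
  set d : R3 → ℝ≥0∞ := SD.indicator (GE lam) with hd
  have ma : Measurable a := mfa.indicator mSA
  have md : Measurable d := (measurable_GE lam).indicator mSD
  set c1 : ℝ := 3 / 2 * K * (1 + L) ^ 4 with hc1
  set c2 : ℝ := 2 * lam * L with hc2
  have hc10 : 0 ≤ c1 := by positivity
  have hc20 : 0 ≤ c2 := by positivity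
  have hpt : ∀ z ∈ MM s3 K L u, ENNReal.ofReal |ht lam u w v z - h2 ε κ lam u w om v z| ≤
      ENNReal.ofReal c1 * a z.1 + ENNReal.ofReal c2 * d z.1 := by
    rintro ⟨x, t⟩ hz
    have hzt := zt_eq_one (le_dep hN hu hl hz)
    have hjj := MM_jj hN.cst hu hl hz
    have hs := hz.1
    have htL := hz.2.1
    simp only at hjj hs htL
    by_cases hv : v (xt u x t) = 0
    · have : |ht lam u w v (x, t) - h2 ε κ lam u w om v (x, t)| = 0 := by
        simp [ht, h2, h1, Theta, hv]
      rw [this]; simp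
    obtain ⟨hf1, hf2⟩ := hD.hv2 _ hv
    have hdx : eno (xt u x t - x) ≤ L := (eno_xt_le u x t).trans htL
    have hF1 : Far B (W / 2) x :=
      H930.Far.mono (H930.Far.sub hf1 hdx) (by linarith)
    have hF2 : ¬ Far B (3 * W) x := by
      have := not_far_sub hf2 hdx
      intro h
      exact this (H930.Far.mono h (by linarith))
    have hom : om x = 1 := hD.hom2 x hF1
    have hq := H586.qq_nonneg hu hl x
    have hrr := rr_nonneg u x
    have hrr1 := rr_le_one hu hl x
    have hw := hD.hw0 (phi u x)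
    have hG : 0 < Gw lam x ^ 2 := by have := Gw_pos lam x; positivity
    -- the difference
    have hprf : prf ε κ u x t = g1 (phi u x + t) := by unfold prf; rw [hzt, mul_one]
    have e1 : ht lam u w v (x, t) - h2 ε κ lam u w om v (x, t) =
        w (phi u x) * rr u x * jj u x t * v (xt u x t) *
          (Gw lam (xt u x t) ^ 2 * ff u (xt u x t) ^ 2 - Gw lam x ^ 2 * g1 (phi u x + t) ^ 2) := by
      simp only [ht, h2, h1, Theta, hprf, hom]
      ring
    have e2 : |Gw lam (xt u x t) ^ 2 * ff u (xt u x t) ^ 2 -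
        Gw lam x ^ 2 * g1 (phi u x + t) ^ 2| ≤
        Gw lam x ^ 2 * (K * (1 + L) ^ 4 * qq u x) +
          (2 * lam * L * Real.exp (2 * lam * L) * Gw lam x ^ 2) * (1 / 2) := by
      have g1' : |ff u (xt u x t) ^ 2 - g1 (phi u x + t) ^ 2| ≤ K * (1 + L) ^ 4 * qq u x := by
        have hcond : qq u x * Real.exp (2 * Real.sqrt 2 * |t|) ≤ 1 := by
          have hc := hz.2.2
          simp only at hc
          have h4 : 1 ≤ 4 * K * (1 + L) ^ 4 := by
            have : 1 ≤ (1 + L) ^ 4 := one_le_pow₀ (by linarith)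
            nlinarith
          have h5 : 0 ≤ Real.exp (2 * Real.sqrt 2 * |t|) * qq u x := by positivity
          nlinarith
        refine (hN.cst.fsq u hu hl x hs t hcond).trans ?_
        have := abs_nonneg t
        gcongr
      have g2' := abs_Gw_sq_sub_le hlam.le (x := x) (y := xt u x t) (r := L)
        (by rw [eno_sub_comm]; exact hdx)
      have g3 := ff_sq_le hu (xt u x t)
      have g4 : 0 ≤ ff u (xt u x t) ^ 2 := sq_nonneg _
      have e3 : Gw lam (xt u x t) ^ 2 * ff u (xt u x t) ^ 2 -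
          Gw lam x ^ 2 * g1 (phi u x + t) ^ 2 =
          Gw lam x ^ 2 * (ff u (xt u x t) ^ 2 - g1 (phi u x + t) ^ 2) -
            (Gw lam x ^ 2 - Gw lam (xt u x t) ^ 2) * ff u (xt u x t) ^ 2 := by ring
      rw [e3]
      refine (abs_sub _ _).trans ?_
      rw [abs_mul, abs_mul, abs_of_pos hG, abs_of_nonneg g4]
      gcongr
    have hexp : Real.exp (2 * lam * L) ≤ 4 / 3 := by
      have h1 : Real.exp (2 * lam * L) ≤ Real.exp (1 / 4) := Real.exp_le_exp.2 hlL
      have h2 : Real.exp (1 / 4) ≤ 4 / 3 := by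
        have := Real.one_sub_le_exp_neg (1 / 4 : ℝ)
        rw [Real.exp_neg] at this
        have h3 := Real.exp_pos (1 / 4 : ℝ)
        rw [show (1 : ℝ) - 1 / 4 = 3 / 4 by norm_num, le_inv_comm₀ (by norm_num) h3] at this
        linarith
      linarith
    have hvabs := hD.hv1 (xt u x t)
    have e4 : |ht lam u w v (x, t) - h2 ε κ lam u w om v (x, t)| ≤
        c1 * (w (phi u x) * rr u x * qq u x * Gw lam x ^ 2) + c2 * Gw lam x ^ 2 := by
      rw [e1, abs_mul, abs_mul, abs_mul, abs_mul, abs_of_nonneg hw.1, abs_of_nonneg hrr,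
        abs_of_nonneg (by linarith : (0:ℝ) ≤ jj u x t)]
      have hA : w (phi u x) * rr u x * jj u x t * |v (xt u x t)| ≤
          w (phi u x) * rr u x * (3 / 2) * 1 := by
        have := hjj.2
        have h0 : 0 ≤ jj u x t := by linarith
        have hw1 := hw.1
        gcongr
      have hB0 : 0 ≤ Gw lam x ^ 2 * (K * (1 + L) ^ 4 * qq u x) +
          (2 * lam * L * Real.exp (2 * lam * L) * Gw lam x ^ 2) * (1 / 2) := by positivity
      have hW0 : 0 ≤ w (phi u x) * rr u x := mul_nonneg hw.1 hrr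
      have hW1 : w (phi u x) * rr u x ≤ 1 := by nlinarith [hw.1, hw.2]
      calc _ ≤ (w (phi u x) * rr u x * (3 / 2) * 1) *
            (Gw lam x ^ 2 * (K * (1 + L) ^ 4 * qq u x) +
            (2 * lam * L * Real.exp (2 * lam * L) * Gw lam x ^ 2) * (1 / 2)) := by
            refine mul_le_mul hA e2 (abs_nonneg _) (by positivity)
        _ = c1 * (w (phi u x) * rr u x * qq u x * Gw lam x ^ 2) +
            (w (phi u x) * rr u x) * (3 / 4 * (2 * lam * L) * Real.exp (2 * lam * L)) *
              Gw lam x ^ 2 := by rw [hc1]; ring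
        _ ≤ c1 * (w (phi u x) * rr u x * qq u x * Gw lam x ^ 2) +
            1 * (3 / 4 * (2 * lam * L) * (4 / 3)) * Gw lam x ^ 2 := by
            gcongr
        _ = _ := by rw [hc2]; ring
    have hmA : x ∈ SA := ⟨hF1, hF2⟩
    have hmD : x ∈ SD := hF2
    simp only [ha, hd, indicator_of_mem hmA, indicator_of_mem hmD, hfa, GE]
    rw [← ENNReal.ofReal_mul hc10, ← ENNReal.ofReal_mul hc20,
      ← ENNReal.ofReal_add (by have := hw.1; positivity) (by positivity)]
    exact ENNReal.ofReal_le_ofReal e4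
  have hsub : MM s3 K L u ⊆ univ ×ˢ Icc (-L) L := by
    rintro ⟨x, t⟩ hz
    exact ⟨mem_univ _, abs_le.1 hz.2.1⟩
  have mtot : Measurable fun x => ENNReal.ofReal c1 * a x + ENNReal.ofReal c2 * d x := by
    fun_prop
  calc ∫⁻ z in MM s3 K L u, ENNReal.ofReal |ht lam u w v z - h2 ε κ lam u w om v z|
      ≤ ∫⁻ z in MM s3 K L u, (ENNReal.ofReal c1 * a z.1 + ENNReal.ofReal c2 * d z.1) * 1 := by
        refine setLIntegral_mono' (measurableSet_MM hu hl) fun z hz => ?_
        rw [mul_one]; exact hpt z hz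
    _ ≤ ∫⁻ z in univ ×ˢ Icc (-L) L, (ENNReal.ofReal c1 * a z.1 + ENNReal.ofReal c2 * d z.1) * 1 :=
        lintegral_mono_set hsub
    _ = (∫⁻ x in univ, (ENNReal.ofReal c1 * a x + ENNReal.ofReal c2 * d x)) *
          ∫⁻ c in Icc (-L) L, 1 :=
        setLIntegral_prod_mul univ (Icc (-L) L) mtot measurable_const
    _ = (ENNReal.ofReal c1 * QE lam W u B w +
          ENNReal.ofReal c2 * ∫⁻ x in {x | ¬ Far B (3 * W) x}, GE lam x) *
            ENNReal.ofReal (2 * L) := by
        congr 1
        · rw [Measure.restrict_univ, lintegral_add_left (by fun_prop), lintegral_const_mul _ ma,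
            lintegral_const_mul _ md, ha, hd, lintegral_indicator mSA, lintegral_indicator mSD]
          rfl
        · rw [lintegral_one, Measure.restrict_apply_univ, Real.volume_Icc]
          congr 1; ring
    _ = ENNReal.ofReal (c1 * (2 * L)) * QE lam W u B w +
          ENNReal.ofReal (c2 * (2 * L)) * ∫⁻ x in {x | ¬ Far B (3 * W) x}, GE lam x := by
        rw [ENNReal.ofReal_mul hc10, ENNReal.ofReal_mul hc20]
        ring
    _ ≤ _ := by
        exact add_le_add (mul_le_mul' (ENNReal.ofReal_le_ofReal (pa_k1 hK hL)) le_rfl)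
          (mul_le_mul' (ENNReal.ofReal_le_ofReal (pa_k2 hlam hL)) le_rfl)

end Vale.Agent.P134.H458
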