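import Vale.Agent.P134.PX.Defs
import Vale.Agent.P134.H458.NK

/-! # P134 / H458 : `NN = NK` and the bound `NN ≤ (8/5) |∇φ|² |D²φ|² + 100 (...)` -/

open MeasureTheory Set
open scoped ENNReal RealInnerProductSpace Real

namespace Vale.Agent.P134.H458

open PS hiding Lat
open PX

/-- standard basis vector -/
noncomputable def bs (i : Fin 3) : E3 := EuclideanSpace.single i 1

theorem pt_eq (q : PS.Lat) : pt q = (q 0 : ℝ) • bs 0 + (q 1 : ℝ) • bs 1 + (q 2 : ℝ) • bs 2 := by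
  ext j
  fin_cases j <;> simp [pt, bs]

theorem lin_pt (L : E3 →L[ℝ] ℝ) (q : PS.Lat) :
    L (pt q) = q 0 * L (bs 0) + q 1 * L (bs 1) + q 2 * L (bs 2) := by
  rw [pt_eq]; simp

theorem bil_pt (H : E3 →L[ℝ] E3 →L[ℝ] ℝ) (a b : PS.Lat) :
    H (pt a) (pt b) = ∑ i, ∑ j, (a i : ℝ) * b j * H (bs i) (bs j) := by
  rw [pt_eq a, pt_eq b]
  simp [Fin.sum_univ_three]
  ring

def tA : Fin 7 → Fin 6 → PS.Lat :=
  ![![![0, -1, 0], ![0, 0, -1], ![0, 0, -1], ![1, 1, 1], ![1, 1, 1], ![0, -1, 0]],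
    ![![-1, 0, 0], ![0, 0, -1], ![0, 0, -1], ![1, 1, 1], ![1, 1, 1], ![-1, 0, 0]],
    ![![-1, 0, 0], ![0, -1, 0], ![0, -1, 0], ![1, 1, 1], ![1, 1, 1], ![-1, 0, 0]],
    ![![0, 0, -1], ![1, 0, 0], ![1, 1, 1], ![0, 1, 0], ![0, 0, -1], ![1, 0, 0]],
    ![![0, -1, 0], ![1, 0, 0], ![1, 1, 1], ![0, 0, 1], ![0, -1, 0], ![1, 0, 0]],
    ![![-1, 0, 0], ![0, 1, 0], ![1, 1, 1], ![0, 0, 1], ![-1, 0, 0], ![0, 1, 0]],
    ![![1, 0, 0], ![1, 0, 0], ![0, 1, 0], ![0, 1, 0], ![0, 0, 1], ![0, 0, 1]]]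

def tB : Fin 7 → Fin 6 → PS.Lat :=
  ![![![1, 1, 1], ![1, 1, 1], ![0, -1, 0], ![0, -1, 0], ![0, 0, -1], ![0, 0, -1]],
    ![![1, 1, 1], ![1, 1, 1], ![-1, 0, 0], ![-1, 0, 0], ![0, 0, -1], ![0, 0, -1]],
    ![![1, 1, 1], ![1, 1, 1], ![-1, 0, 0], ![-1, 0, 0], ![0, -1, 0], ![0, -1, 0]],
    ![![1, 1, 1], ![0, 1, 0], ![0, 0, -1], ![1, 0, 0], ![1, 1, 1], ![0, 1, 0]],
    ![![1, 1, 1], ![0, 0, 1], ![0, -1, 0], ![1, 0, 0], ![1, 1, 1], ![0, 0, 1]],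
    ![![1, 1, 1], ![0, 0, 1], ![-1, 0, 0], ![0, 1, 0], ![1, 1, 1], ![0, 0, 1]],
    ![![0, 1, 0], ![0, 0, 1], ![0, 0, 1], ![1, 0, 0], ![1, 0, 0], ![0, 1, 0]]]

theorem tab_eq : ∀ (τ : Fin 7) (k : Fin 6), k.val < mm τ →
    bb τ k - sb τ (k + 1) = tA τ k ∧ bb τ (k + 2) - sb τ (k + 1) = tB τ k := by decide

theorem mm_le (τ : Fin 7) : mm τ ≤ 6 := by revert τ; decide

theorem NN_tab (φ : E3 → ℝ) (x : E3) : NN φ x = 1 / 4 * ∑ τ : Fin 7, ∑ k ∈ Finset.range (mm τ),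
    (fderiv ℝ φ x (pt (evec τ))) ^ 2 *
    (fderiv ℝ (fderiv ℝ φ) x (pt (tA τ (Fin.ofNat 6 k))) (pt (tB τ (Fin.ofNat 6 k)))) ^ 2 := by
  unfold NN
  congr 1
  refine Finset.sum_congr rfl fun τ _ => Finset.sum_congr rfl fun k hk => ?_
  have hk' := Finset.mem_range.1 hk
  have h6 := mm_le τ
  have hv : (Fin.ofNat 6 k : Fin 6).val = k := by
    simp only [Fin.ofNat]
    exact Nat.mod_eq_of_lt (by omega)
  have := tab_eq τ (Fin.ofNat 6 k) (by rw [hv]; exact hk')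
  rw [hv] at this
  rw [this.1, this.2]

theorem bil_expl (H : E3 →L[ℝ] E3 →L[ℝ] ℝ) (hs : ∀ u v, H u v = H v u) (a0 a1 a2 b0 b1 b2 : ℤ) :
    H (pt ![a0, a1, a2]) (pt ![b0, b1, b2]) = a0 * b0 * H (bs 0) (bs 0) +
      a1 * b1 * H (bs 1) (bs 1) + a2 * b2 * H (bs 2) (bs 2) +
      (a0 * b1 + a1 * b0) * H (bs 0) (bs 1) + (a0 * b2 + a2 * b0) * H (bs 0) (bs 2) +
      (a1 * b2 + a2 * b1) * H (bs 1) (bs 2) := by
  rw [bil_pt]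
  simp only [Fin.sum_univ_three, Matrix.cons_val_zero, Matrix.cons_val_one, Matrix.cons_val]
  rw [hs (bs 1) (bs 0), hs (bs 2) (bs 0), hs (bs 2) (bs 1)]
  ring

theorem lin_expl (L : E3 →L[ℝ] ℝ) (a0 a1 a2 : ℤ) :
    L (pt ![a0, a1, a2]) = a0 * L (bs 0) + a1 * L (bs 1) + a2 * L (bs 2) := by
  rw [lin_pt]
  simp

set_option maxHeartbeats 1000000 in
theorem NN_eq_NK (φ : E3 → ℝ) (x : E3)
    (hs : ∀ u v, fderiv ℝ (fderiv ℝ φ) x u v = fderiv ℝ (fderiv ℝ φ) x v u) :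
    NN φ x = NK (fderiv ℝ φ x (bs 0)) (fderiv ℝ φ x (bs 1)) (fderiv ℝ φ x (bs 2))
      (fderiv ℝ (fderiv ℝ φ) x (bs 0) (bs 0)) (fderiv ℝ (fderiv ℝ φ) x (bs 1) (bs 1))
      (fderiv ℝ (fderiv ℝ φ) x (bs 2) (bs 2)) (fderiv ℝ (fderiv ℝ φ) x (bs 0) (bs 1))
      (fderiv ℝ (fderiv ℝ φ) x (bs 0) (bs 2)) (fderiv ℝ (fderiv ℝ φ) x (bs 1) (bs 2)) := by
  rw [NN_tab]
  generalize fderiv ℝ (fderiv ℝ φ) x = H at hs ⊢
  generalize fderiv ℝ φ x = L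
  have e6 : ∀ f : ℕ → ℝ, ∑ k ∈ Finset.range 6, f k = f 0 + f 1 + f 2 + f 3 + f 4 + f 5 := by
    intro f; simp [Finset.sum_range_succ]
  have e4 : ∀ f : ℕ → ℝ, ∑ k ∈ Finset.range 4, f k = f 0 + f 1 + f 2 + f 3 := by
    intro f; simp [Finset.sum_range_succ]
  have e7 : ∀ f : Fin 7 → ℝ, ∑ τ, f τ = f 0 + f 1 + f 2 + f 3 + f 4 + f 5 + f 6 := by
    intro f; rw [Fin.sum_univ_succ, Fin.sum_univ_six]; simp; ring
  rw [e7]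
  simp only [mm, Matrix.cons_val_zero, Matrix.cons_val_one, Matrix.cons_val]
  rw [e6, e6, e6, e4, e4, e4, e6]
  simp only [Fin.ofNat, evec, tA, tB]
  simp only [Nat.zero_mod, Nat.one_mod, Nat.reduceMod, Fin.zero_eta, Fin.mk_one, Fin.reduceFinMk,
    Matrix.cons_val_zero, Matrix.cons_val_one, Matrix.cons_val, Fin.isValue, lin_expl,
    bil_expl H hs]
  push_cast
  unfold NK
  ring

end Vale.Agent.P134.H458
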